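import Vale.Agent.P181.R2.H959.FDefs
import Vale.Agent.P181.H536.HW
import Vale.Agent.P181.Bdl.B2

set_option autoImplicit false

/-!
# P181, T4: Foulkes' inequality for `(a - 1)^2 ≤ b`, from the canonical map of the starting files
-/

open scoped TensorProduct

namespace Vale.Agent.P181.T4

open Vale.Agent.P181 Vale.Agent.P181.H280 Vale.Agent.P181.H54

/-- Foulkes' inequality for `(a - 1)^2 ≤ b`. -/
theorem big {a b n : ℕ} (h : (a - 1) ^ 2 ≤ b) (lam : Fin n → ℕ) :
    plethMult a b n lam ≤ plethMult b a n lam := by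
  have hinj : ∀ x ∈ hwSpace lam (plethAct a b n), foulkesHowe a b (Fin n → ℂ) x = 0 → x = 0 :=
    fun x _ h0 => foulkesHowe_injective (V := Fin n → ℂ) h
      (h0.trans (map_zero (foulkesHowe a b (Fin n → ℂ))).symm)
  exact finrank_le_of_inj (foulkesHowe a b (Fin n → ℂ)) _ _
    (fun x hx => H536.foulkesHowe_hwSpace lam x hx) hinj

/-- The same with the binders of `BigStmt` of `T4/Asm.lean`. -/
theorem bigStmt : ∀ (a b n : ℕ) (lam : Fin n → ℕ), (a - 1) ^ 2 ≤ b →
    plethMult a b n lam ≤ plethMult b a n lam := fun _ _ _ lam h => big h lam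

end Vale.Agent.P181.T4
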