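import Vale.Agent.P181.T4.Typ
import Vale.Agent.P181.H583.Upper
import Vale.Agent.P181.H19.Gt

set_option autoImplicit false

/-!
# P181, T4: assembly
-/

namespace Vale.Agent.P181.T4

open Vale.Agent.P181.H280 Vale.Agent.P181.H463

/-- The rows `≥ R`. -/
def low {a : ℕ} (R : ℕ) (lam : Fin a → ℕ) : Fin (a - R) → ℕ := fun i => ex lam (R + i)

/-- **(C)** The lower bound for the multiplicity in `Sym^b(Sym^a)`. -/
def LowStmt : Prop :=
  ∀ δ : ℝ, 0 < δ → δ ≤ 1 / 3 → ∃ K : ℕ, ∀ A0 : ℝ, 0 < A0 → ∀ᶠ a : ℕ in Filter.atTop,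
    ∀ b L : ℕ, (a : ℝ) + (a : ℝ) ^ (3 * δ) ≤ b → b ≤ a ^ 2 → (L : ℝ) ≤ A0 * b * Real.log a →
    ∀ lam : Fin a → ℕ, Antitone lam → ∑ i, lam i = a * b →
    Typ a b ⌊(a : ℝ) ^ δ⌋₊ ⌊(a : ℝ) ^ (δ / 2)⌋₊ K L lam →
    ∃ N : ℕ, N ≤ b ∧ b ≤ N + ⌊(a : ℝ) ^ δ⌋₊ * (L / a + 3) ∧
      gt (a - ⌊(a : ℝ) ^ δ⌋₊) N (low ⌊(a : ℝ) ^ δ⌋₊ lam) ≤
        ((∑ i, low ⌊(a : ℝ) ^ δ⌋₊ lam i) + N - 1).choose (N - 1) * plethMult b a a lam

/-- **(D2)** The branching upper bound. -/
def UpStmt : Prop := ∀ (n N : ℕ) (lam : Fin n → ℕ), Antitone lam →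
  Module.finrank ℂ (HW n (Fin N) lam) ≤ gt n N lam

/-- **(Z)** Foulkes' inequality for `(a - 1)^2 ≤ b`. -/
def BigStmt : Prop := ∀ (a b n : ℕ) (lam : Fin n → ℕ), (a - 1) ^ 2 ≤ b →
  plethMult a b n lam ≤ plethMult b a n lam

lemma ex_of_lt {a : ℕ} (lam : Fin a → ℕ) {i : ℕ} (h : i < a) : ex lam i = lam ⟨i, h⟩ := by
  rw [ex, dif_pos h]

lemma ex_anti {a : ℕ} {lam : Fin a → ℕ} (h : Antitone lam) {i j : ℕ} (hij : i ≤ j) :
    ex lam j ≤ ex lam i := by
  unfold ex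
  split_ifs with h1 h2
  · exact h (by simpa [Fin.le_def] using hij)
  · omega
  · exact Nat.zero_le _
  · exact le_rfl

lemma low_anti {a : ℕ} {lam : Fin a → ℕ} (h : Antitone lam) (R : ℕ) : Antitone (low R lam) := by
  intro i j hij
  exact ex_anti h (by have : (i : ℕ) ≤ j := hij; omega)

lemma sum_split {a R : ℕ} (hR : R ≤ a) (lam : Fin a → ℕ) :
    ∑ i, lam i = ∑ i ∈ Finset.range R, ex lam i + ∑ i, low R lam i := by
  have h1 : ∑ i, lam i = ∑ i ∈ Finset.range a, ex lam i := by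
    rw [Finset.sum_range]
    exact Finset.sum_congr rfl (fun i _ => (ex_of_lt lam i.2).symm)
  have h2 : ∑ i, low R lam i = ∑ i ∈ Finset.range (a - R), ex lam (R + i) := by
    rw [Finset.sum_range]
    rfl
  rw [h1, h2, ← Finset.sum_range_add]
  congr 2
  omega

/-- All conditions together give the inequality. -/
theorem main_typ (hU : UpStmt) {a b R L N : ℕ} (hR : R ≤ a) {lam : Fin a → ℕ}
    (hlam : Antitone lam) (h0 : ex lam 0 ≤ L) (haN : a ≤ N)
    (hnum : ((L : ℝ) + 1) ^ (a * R) *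
      (((∑ i, low R lam i) + N - 1).choose (N - 1) : ℝ) ≤
      Real.exp (((N - a : ℕ) : ℝ) * ((∑ i, low R lam i : ℕ) : ℝ) / ((N + L : ℕ) : ℝ)))
    (hC : gt (a - R) N (low R lam) ≤
      ((∑ i, low R lam i) + N - 1).choose (N - 1) * plethMult b a a lam) :
    plethMult a b a lam ≤ plethMult b a a lam := by
  have hle : ∀ i : ℕ, ex lam i ≤ L := fun i => (ex_anti hlam (Nat.zero_le i)).trans h0
  have h1 := plethMult_le_pow (a := a) (b := b) (c := a) (R := R) (m := a - R) (by omega) lam L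
    (fun i _ => by
      have := hle i
      rwa [ex_of_lt lam i.2] at this)
  have h2 : (fun i : Fin (a - R) => lam ⟨R + i, by have := i.isLt; omega⟩) = low R lam := by
    funext i
    have := i.isLt
    rw [low, ex_of_lt lam (by omega)]
  rw [h2] at h1
  have h3 := hU (a - R) a (low R lam) (low_anti hlam R)
  have h4 := Vale.Agent.P181.H19.gt_exp (n := a - R) (a := a) (N := N) (L := L) (by omega) haN
    (low R lam) (low_anti hlam R) (fun i => hle _)
  set m : ℕ := ∑ i, low R lam i with hm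
  set x : ℝ := ((N - a : ℕ) : ℝ) * (m : ℝ) / ((N + L : ℕ) : ℝ) with hx
  set G : ℝ := (gt (a - R) a (low R lam) : ℝ) with hG
  set G' : ℝ := (gt (a - R) N (low R lam) : ℝ) with hG'
  set Cc : ℝ := ((m + N - 1).choose (N - 1) : ℝ) with hCc
  set P : ℝ := (plethMult b a a lam : ℝ) with hP
  have h5 : (plethMult a b a lam : ℝ) ≤ ((L : ℝ) + 1) ^ (a * R) * G := by
    have h6 : plethMult a b a lam ≤ (L + 1) ^ (R * a) * gt (a - R) a (low R lam) :=
      h1.trans (Nat.mul_le_mul_left _ h3)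
    have h7 : (plethMult a b a lam : ℝ) ≤ (((L + 1) ^ (R * a) * gt (a - R) a (low R lam) : ℕ) : ℝ) :=
      by exact_mod_cast h6
    rw [mul_comm R a] at h7
    push_cast at h7
    exact h7
  have h8 : G' ≤ Cc * P := by
    rw [hG', hCc, hP]
    exact_mod_cast hC
  have hex : 0 < Real.exp x := Real.exp_pos x
  have hP0 : 0 ≤ P := Nat.cast_nonneg _
  have hL0 : 0 ≤ ((L : ℝ) + 1) ^ (a * R) := by positivity
  have h9 : (plethMult a b a lam : ℝ) * Real.exp x ≤ P * Real.exp x := by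
    calc (plethMult a b a lam : ℝ) * Real.exp x
        ≤ (((L : ℝ) + 1) ^ (a * R) * G) * Real.exp x :=
          mul_le_mul_of_nonneg_right h5 hex.le
      _ = ((L : ℝ) + 1) ^ (a * R) * (G * Real.exp x) := by ring
      _ ≤ ((L : ℝ) + 1) ^ (a * R) * G' := mul_le_mul_of_nonneg_left h4 hL0
      _ ≤ ((L : ℝ) + 1) ^ (a * R) * (Cc * P) := mul_le_mul_of_nonneg_left h8 hL0
      _ = (((L : ℝ) + 1) ^ (a * R) * Cc) * P := by ring
      _ ≤ Real.exp x * P := mul_le_mul_of_nonneg_right hnum hP0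
      _ = P * Real.exp x := mul_comm _ _
  have h10 : (plethMult a b a lam : ℝ) ≤ (plethMult b a a lam : ℝ) :=
    le_of_mul_le_mul_right h9 hex
  exact_mod_cast h10

lemma all_finite (a b : ℕ) : (All a b).Finite := by
  apply Set.Finite.subset (Set.finite_Icc (0 : Fin a → ℕ) (fun _ => a * b))
  rintro lam ⟨_, hs⟩
  refine ⟨fun i => Nat.zero_le _, fun i => ?_⟩
  rw [← hs]
  exact Finset.single_le_sum (fun i _ => Nat.zero_le (lam i)) (Finset.mem_univ i)

/-- **Foulkes' inequality for almost all partitions, for all `b ≥ a + a^ε`.** -/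
theorem final (hE : EStmt) (hN : NumStmt) (hLow : LowStmt) (hU : UpStmt) (hB : BigStmt)
    (ε : ℝ) (hε : 0 < ε) : ∀ᶠ a : ℕ in Filter.atTop, ∀ b : ℕ,
      (a : ℝ) + (a : ℝ) ^ ε ≤ b →
      ({lam : Fin a → ℕ | Antitone lam ∧ ∑ i, lam i = a * b ∧
          ¬ plethMult a b a lam ≤ plethMult b a a lam}.ncard : ℝ) ≤
        (a : ℝ) ^ (ε - 1) *
          ({lam : Fin a → ℕ | Antitone lam ∧ ∑ i, lam i = a * b}.ncard : ℝ) := by
  have hsub : ∀ a b : ℕ, {lam : Fin a → ℕ | Antitone lam ∧ ∑ i, lam i = a * b ∧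
      ¬ plethMult a b a lam ≤ plethMult b a a lam} ⊆ All a b := by
    rintro a b lam ⟨h1, h2, _⟩
    exact ⟨h1, h2⟩
  by_cases hε1 : 1 ≤ ε
  · filter_upwards [Filter.eventually_ge_atTop 1] with a ha b _
    have h1 : (1 : ℝ) ≤ (a : ℝ) ^ (ε - 1) :=
      Real.one_le_rpow (by exact_mod_cast ha) (by linarith)
    have h2 : ({lam : Fin a → ℕ | Antitone lam ∧ ∑ i, lam i = a * b ∧
        ¬ plethMult a b a lam ≤ plethMult b a a lam}.ncard : ℝ) ≤ ((All a b).ncard : ℝ) := by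
      exact_mod_cast Set.ncard_le_ncard (hsub a b) (all_finite a b)
    refine h2.trans ?_
    exact le_mul_of_one_le_left (Nat.cast_nonneg _) h1
  push Not at hε1
  have hδ : 0 < ε / 3 := by linarith
  have hδ3 : ε / 3 ≤ 1 / 3 := by linarith
  obtain ⟨K, hK⟩ := hLow (ε / 3) hδ hδ3
  obtain ⟨A0, hA0, hEA⟩ := hE (ε / 3) hδ (by linarith) K
  filter_upwards [hEA, hK A0 hA0, hN (ε / 3) hδ hδ3 A0 hA0, Filter.eventually_ge_atTop 1] with a
    hEa hKa hNa ha b hb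
  have ha1 : (1 : ℝ) ≤ a := by exact_mod_cast ha
  have hab : a ≤ b := by
    have : (a : ℝ) ≤ b := by
      have h1 : 0 ≤ (a : ℝ) ^ ε := by positivity
      linarith
    exact_mod_cast this
  by_cases hb2 : b ≤ a ^ 2
  · have h3 : 3 * (ε / 3) = ε := by ring
    have hEab := hEa b hab hb2
    rw [h3] at hEab
    refine le_trans ?_ hEab
    have hsub2 : {lam : Fin a → ℕ | Antitone lam ∧ ∑ i, lam i = a * b ∧
        ¬ plethMult a b a lam ≤ plethMult b a a lam} ⊆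
        (All a b ∩ {lam | ¬ Typ a b ⌊(a : ℝ) ^ (ε / 3)⌋₊ ⌊(a : ℝ) ^ (ε / 3 / 2)⌋₊ K
          ⌊A0 * b * Real.log a⌋₊ lam}) := by
      rintro lam ⟨h1, h2, h4⟩
      refine ⟨⟨h1, h2⟩, fun hT => h4 ?_⟩
      set R : ℕ := ⌊(a : ℝ) ^ (ε / 3)⌋₊ with hRdef
      have hRa : R ≤ a := by
        have h5 : (a : ℝ) ^ (ε / 3) ≤ a := by
          conv_rhs => rw [← Real.rpow_one (a : ℝ)]
          exact Real.rpow_le_rpow_of_exponent_le ha1 (by linarith)
        exact Nat.floor_le_of_le h5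
      have hlog : 0 ≤ Real.log a := Real.log_nonneg ha1
      have hL : ((⌊A0 * b * Real.log a⌋₊ : ℕ) : ℝ) ≤ A0 * b * Real.log a :=
        Nat.floor_le (by positivity)
      obtain ⟨N, hNb, hbN, hgt⟩ := hKa b ⌊A0 * b * Real.log a⌋₊ (by rw [h3]; exact hb) hb2 hL
        lam h1 h2 hT
      have hsp := sum_split hRa lam
      have htop : ∑ i ∈ Finset.range R, ex lam i ≤ R * ⌊A0 * b * Real.log a⌋₊ := by
        calc ∑ i ∈ Finset.range R, ex lam i ≤ ∑ _i ∈ Finset.range R, ⌊A0 * b * Real.log a⌋₊ :=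
              Finset.sum_le_sum (fun i _ => (ex_anti h1 (Nat.zero_le i)).trans hT.1)
          _ = _ := by rw [Finset.sum_const, Finset.card_range, smul_eq_mul]
      obtain ⟨haN, hnum⟩ := hNa b N (∑ i, low R lam i) ⌊A0 * b * Real.log a⌋₊
        (by rw [h3]; exact hb) hb2 hL hNb hbN (by omega) (by omega)
      exact main_typ hU hRa h1 hT.1 haN hnum hgt
    exact_mod_cast Set.ncard_le_ncard hsub2 ((all_finite a b).subset Set.inter_subset_left)
  · have h1 : {lam : Fin a → ℕ | Antitone lam ∧ ∑ i, lam i = a * b ∧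
        ¬ plethMult a b a lam ≤ plethMult b a a lam} = ∅ := by
      apply Set.eq_empty_of_forall_notMem
      rintro lam ⟨_, _, h4⟩
      apply h4
      apply hB
      have h5 : (a - 1) ^ 2 ≤ a ^ 2 := Nat.pow_le_pow_left (Nat.sub_le a 1) 2
      omega
    rw [h1, Set.ncard_empty, Nat.cast_zero]
    positivity

end Vale.Agent.P181.T4
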