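import Mathlib

set_option autoImplicit false

/-!
# P181, T4: the typical partitions (frozen definitions)

`lam : Fin a → ℕ` antitone with sum `a * b`; `ex lam i` is `lam i`, and `0` beyond `a`.
-/

namespace Vale.Agent.P181.T4

/-- The entries of a partition, extended by zero. -/
def ex {a : ℕ} (lam : Fin a → ℕ) (i : ℕ) : ℕ := if h : i < a then lam ⟨i, h⟩ else 0

/-- The partitions of `a * b` with at most `a` parts. -/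
def All (a b : ℕ) : Set (Fin a → ℕ) := {lam | Antitone lam ∧ ∑ i, lam i = a * b}

/-- The typical partitions: `lam_0 ≤ L`, many columns of length in `(R1, R]`, columns of every
length `≤ R`, many columns of length `> R`. -/
def Typ (a b R R1 K L : ℕ) (lam : Fin a → ℕ) : Prop :=
  ex lam 0 ≤ L ∧ ex lam R + K * b ≤ ex lam R1 ∧
    (∀ i < R, ex lam (i + 1) + K * (L / a + 1) ≤ ex lam i) ∧ K * (a + b) ≤ ex lam R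

/-- **(E)** Almost all partitions are typical (`R = ⌊a^δ⌋`, `R1 = ⌊a^(δ/2)⌋`,
`L = ⌊A0 b log a⌋`). -/
def EStmt : Prop :=
  ∀ δ : ℝ, 0 < δ → δ ≤ 2 / 5 → ∀ K : ℕ, ∃ A0 : ℝ, 0 < A0 ∧ ∀ᶠ a : ℕ in Filter.atTop, ∀ b : ℕ,
    a ≤ b → b ≤ a ^ 2 →
    ((All a b ∩ {lam | ¬ Typ a b ⌊(a : ℝ) ^ δ⌋₊ ⌊(a : ℝ) ^ (δ / 2)⌋₊ K
      ⌊A0 * b * Real.log a⌋₊ lam}).ncard : ℝ) ≤ (a : ℝ) ^ (3 * δ - 1) * ((All a b).ncard : ℝ)

/-- **(H1)** The numerical inequality. -/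
def NumStmt : Prop :=
  ∀ δ : ℝ, 0 < δ → δ ≤ 1 / 3 → ∀ A0 : ℝ, 0 < A0 → ∀ᶠ a : ℕ in Filter.atTop, ∀ b N m L : ℕ,
    (a : ℝ) + (a : ℝ) ^ (3 * δ) ≤ b → b ≤ a ^ 2 → (L : ℝ) ≤ A0 * b * Real.log a →
    N ≤ b → b ≤ N + ⌊(a : ℝ) ^ δ⌋₊ * (L / a + 3) → m ≤ a * b → a * b ≤ m + ⌊(a : ℝ) ^ δ⌋₊ * L →
    a ≤ N ∧ ((L : ℝ) + 1) ^ (a * ⌊(a : ℝ) ^ δ⌋₊) * ((m + N - 1).choose (N - 1) : ℝ) ≤
      Real.exp (((N - a : ℕ) : ℝ) * (m : ℝ) / ((N + L : ℕ) : ℝ))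

end Vale.Agent.P181.T4
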